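import Vale.Agent.P207.N3.H828.TrF
import Vale.Agent.P207.N3.H266.SmBOf
import Vale.Agent.P207.N3.H728.SmF
import Vale.Agent.P207.N3.Top.Suite

/-!
# P207, line N3, P12: the smooth alternative is impossible if there is a split closed orbit
-/

noncomputable section

open Set Filter Topology Metric MeasureTheory
open scoped ContDiff

set_option linter.unusedSectionVars false

namespace Vale.Agent.P207.N3.H828

variable {Γ X B : Type} [Group Γ] [MetricSpace X] [ProperSpace X] [MulAction Γ X]
  [IsIsometricSMul Γ X] [TopologicalSpace B] [CompactSpace B] [T2Space B] [MulAction Γ B]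
  [ContinuousConstSMul Γ B] {L : Leaf Γ X B} [MeasurableSpace B] [BorelSpace B]

/-- **P12** over the smooth boundary -/
theorem smooth_false_of_smB {A : Area L} (H : SmB L A.D) (Fb : Fiber L) (o : Orb L)
    (n : Nor L o) : ¬ n.N.Split :=
  H728.not_split_of H Fb (fun _ _ h => H.VV_trFree h) o n

variable {V : Type} [NormedAddCommGroup V] [NormedSpace ℝ V] [FiniteDimensional ℝ V]

/-- **the field `smooth_false` of `Rem` and `Outs`** over the geometric input -/
theorem smooth_false (S : Suite L V) :
    SmoothAlt S.T → ∀ (o : Orb L) (n : Nor L o), ¬ n.N.Split := by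
  intro hS o n
  obtain ⟨x, hx⟩ := S.X.exists_base
  exact smooth_false_of_smB (H266.smB_of_alt S.I S.M S.H hS hx S.A.D S.A.D_eq) S.F o n

end Vale.Agent.P207.N3.H828
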